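import Vale.Agent.Lib.P065.Heilbronn

open Vale.Agent.Lib.P065 in
/-- Every set of at least three points in the unit square spans a triangle whose area is small
when the set has many `k`-sets or many halving lines. -/
theorem Vale.Agent.Results.P036.KSetCriterion.result (P : Finset (ℝ × ℝ))
    (hsq : ∀ p ∈ P, 0 ≤ p.1 ∧ p.1 ≤ 1 ∧ 0 ≤ p.2 ∧ p.2 ≤ 1) (hcard : 3 ≤ P.card) :
    ∃ a ∈ P, ∃ b ∈ P, ∃ c ∈ P, a ≠ b ∧ a ≠ c ∧ b ≠ c ∧
      (∀ k, 1 ≤ k → k < P.card →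
        (((kSets P k).card : ℝ) - 4) ^ 3 * triangleArea a b c ≤ 256 * (k : ℝ) ^ 2) ∧
      (((halvingLines P).card : ℝ) - 2) ^ 3 * triangleArea a b c ≤ 8 * (P.card : ℝ) ^ 2 :=
  heilbronn_link P hsq hcard
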